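import Mathlib

/-!
Helper lemmas for P040 (Zarankiewicz bound for straight-line drawings of `K_{m,n}` with one
class collinear).
-/

namespace Vale.Agent.H11.P040

open Finset

/-- Two segments from a line `p + x • d` to points `p + u • d + v • e` on the same (positive) side
cross, when both base points are on the positive side of the line through the two apexes. -/
theorem core_cross {E : Type*} [AddCommGroup E] [Module ℝ E] (p d e : E)
    (x x' u v u' v' : ℝ) (hv : 0 < v) (hv' : 0 < v')
    (hs : 0 < (u * v' - u' * v) - (v' - v) * x)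
    (hs' : 0 < (u * v' - u' * v) - (v' - v) * x') (hx : x < x') :
    (segment ℝ (p + x • d) (p + u • d + v • e) ∩
      segment ℝ (p + x' • d) (p + u' • d + v' • e)).Nonempty := by
  set D : ℝ := u * v' - u' * v - x * v' + x' * v with hD
  have hDpos : 0 < D := by nlinarith
  have h1 : (x' - x) * v' < D := by nlinarith
  have h2 : (x' - x) * v < D := by nlinarith
  set s : ℝ := (x' - x) * v' / D with hs_def
  set s' : ℝ := (x' - x) * v / D with hs'_def
  have hs0 : 0 ≤ s := by positivity
  have hs1 : s ≤ 1 := by rw [hs_def, div_le_one hDpos]; exact h1.le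
  have hs'0 : 0 ≤ s' := by
    have : 0 ≤ (x' - x) * v := by nlinarith
    positivity
  have hs'1 : s' ≤ 1 := by rw [hs'_def, div_le_one hDpos]; exact h2.le
  refine ⟨(1 - s) • (p + x • d) + s • (p + u • d + v • e), ?_, ?_⟩
  · exact ⟨1 - s, s, by linarith, hs0, by ring, rfl⟩
  · refine ⟨1 - s', s', by linarith, hs'0, by ring, ?_⟩
    have e1 : (1 - s') * x' + s' * u' = (1 - s) * x + s * u := by
      rw [hs_def, hs'_def]; field_simp; ring
    have e2 : s' * v' = s * v := by
      rw [hs_def, hs'_def]; field_simp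
    linear_combination (norm := module) e1 • d + e2 • e

/-- The signed position of the base point `x` relative to the line through the two apexes. -/
def sig (u v u' v' x : ℝ) : ℝ := (u * v' - u' * v) - (v' - v) * x

theorem cross_pos {E : Type*} [AddCommGroup E] [Module ℝ E] (p d e : E)
    (x x' u v u' v' : ℝ) (hv : 0 < v) (hv' : 0 < v')
    (hss : 0 < sig u v u' v' x * sig u v u' v' x') (hx : x ≠ x') :
    (segment ℝ (p + x • d) (p + u • d + v • e) ∩
      segment ℝ (p + x' • d) (p + u' • d + v' • e)).Nonempty ∨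
    (segment ℝ (p + x • d) (p + u' • d + v' • e) ∩
      segment ℝ (p + x' • d) (p + u • d + v • e)).Nonempty := by
  unfold sig at hss
  rcases pos_and_pos_or_neg_and_neg_of_mul_pos hss with ⟨h1, h2⟩ | ⟨h1, h2⟩
  · rcases lt_or_gt_of_ne hx with h | h
    · exact Or.inl (core_cross p d e x x' u v u' v' hv hv' h1 h2 h)
    · right
      rw [Set.inter_comm]
      exact core_cross p d e x' x u v u' v' hv hv' h2 h1 h
  · rcases lt_or_gt_of_ne hx with h | h
    · right
      exact core_cross p d e x x' u' v' u v hv' hv (by linarith) (by linarith) h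
    · left
      rw [Set.inter_comm]
      exact core_cross p d e x' x u' v' u v hv' hv (by linarith) (by linarith) h

theorem cross_same_side {E : Type*} [AddCommGroup E] [Module ℝ E] (p d e : E)
    (x x' u v u' v' : ℝ) (hvv : 0 < v * v')
    (hss : 0 < sig u v u' v' x * sig u v u' v' x') (hx : x ≠ x') :
    (segment ℝ (p + x • d) (p + u • d + v • e) ∩
      segment ℝ (p + x' • d) (p + u' • d + v' • e)).Nonempty ∨
    (segment ℝ (p + x • d) (p + u' • d + v' • e) ∩
      segment ℝ (p + x' • d) (p + u • d + v • e)).Nonempty := by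
  rcases pos_and_pos_or_neg_and_neg_of_mul_pos hvv with ⟨h1, h2⟩ | ⟨h1, h2⟩
  · exact cross_pos p d e x x' u v u' v' h1 h2 hss hx
  · have hss' : 0 < sig u (-v) u' (-v') x * sig u (-v) u' (-v') x' := by
      have e1 : ∀ y, sig u (-v) u' (-v') y = - sig u v u' v' y := by
        intro y; unfold sig; ring
      rw [e1, e1]; linarith
    have := cross_pos p d (-e) x x' u (-v) u' (-v') (by linarith) (by linarith) hss' hx
    simpa only [neg_smul_neg] using this

/-- A point of a line between two others lies on the segment. -/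
theorem mem_segment_line {E : Type*} [AddCommGroup E] [Module ℝ E] (p d : E)
    (x y z : ℝ) (h : (x ≤ z ∧ z ≤ y) ∨ (y ≤ z ∧ z ≤ x)) :
    p + z • d ∈ segment ℝ (p + x • d) (p + y • d) := by
  by_cases hxy : x = y
  · subst hxy
    have : z = x := by rcases h with ⟨h1, h2⟩ | ⟨h1, h2⟩ <;> linarith
    subst this
    exact left_mem_segment ℝ _ _
  · have hne : y - x ≠ 0 := sub_ne_zero.mpr (Ne.symm hxy)
    set θ : ℝ := (z - x) / (y - x) with hθ
    have h0 : 0 ≤ θ := by
      rcases h with ⟨h1, h2⟩ | ⟨h1, h2⟩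
      · exact div_nonneg (by linarith) (by linarith)
      · exact div_nonneg_of_nonpos (by linarith) (by linarith)
    have h1 : θ ≤ 1 := by
      rcases h with ⟨h1, h2⟩ | ⟨h1, h2⟩
      · have : 0 < y - x := lt_of_le_of_ne (by linarith) (Ne.symm hne)
        rw [hθ, div_le_one this]; linarith
      · have : y - x < 0 := lt_of_le_of_ne (by linarith) hne
        rw [hθ, div_le_one_of_neg this]; linarith
    refine ⟨1 - θ, θ, by linarith, h0, by ring, ?_⟩
    have e1 : (1 - θ) * x + θ * y = z := by
      rw [hθ]; field_simp; ring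
    linear_combination (norm := module) e1 • d

/-- Number of increasing pairs inside a finite set of a linear order. -/
theorem lt_pairs_card {α : Type*} [LinearOrder α] (s : Finset α) :
    2 * ((s ×ˢ s).filter (fun q => q.1 < q.2)).card = s.card * (s.card - 1) := by
  classical
  have h1 : s.offDiag = ((s ×ˢ s).filter (fun q => q.1 < q.2)) ∪
      ((s ×ˢ s).filter (fun q => q.2 < q.1)) := by
    ext ⟨i, k⟩
    simp only [mem_offDiag, mem_union, mem_filter, mem_product]
    constructor
    · rintro ⟨hi, hk, hne⟩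
      rcases lt_or_gt_of_ne hne with h | h
      · exact Or.inl ⟨⟨hi, hk⟩, h⟩
      · exact Or.inr ⟨⟨hi, hk⟩, h⟩
    · rintro (⟨⟨hi, hk⟩, h⟩ | ⟨⟨hi, hk⟩, h⟩)
      · exact ⟨hi, hk, ne_of_lt h⟩
      · exact ⟨hi, hk, ne_of_gt h⟩
  have h2 : Disjoint ((s ×ˢ s).filter (fun q => q.1 < q.2))
      ((s ×ˢ s).filter (fun q => q.2 < q.1)) := by
    apply Finset.disjoint_filter.2
    intro q _ h h'
    exact lt_asymm h h'
  have h3 : ((s ×ˢ s).filter (fun q => q.2 < q.1)).card =
      ((s ×ˢ s).filter (fun q => q.1 < q.2)).card := by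
    apply Finset.card_bij (fun q _ => q.swap)
    · intro q hq
      simp only [mem_filter, mem_product] at hq ⊢
      exact ⟨⟨hq.1.2, hq.1.1⟩, hq.2⟩
    · intro q _ q' _ h
      exact Prod.swap_injective h
    · intro q hq
      simp only [mem_filter, mem_product] at hq
      refine ⟨q.swap, ?_, Prod.swap_swap q⟩
      simp only [mem_filter, mem_product]
      exact ⟨⟨hq.1.2, hq.1.1⟩, hq.2⟩
  have h4 := Finset.offDiag_card s
  rw [h1, Finset.card_union_of_disjoint h2, h3] at h4
  rw [Nat.mul_sub_one]
  omega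

theorem mono_arith (x y : ℕ) :
    2 * (((x + y) / 2) * ((x + y - 1) / 2)) ≤ x * (x - 1) + y * (y - 1) := by
  have hx' : (x : ℤ) * (x - 1) = ((x * (x - 1) : ℕ) : ℤ) := by
    rcases Nat.eq_zero_or_pos x with hx | hx
    · subst hx; simp
    · push_cast [Nat.cast_sub hx]; ring
  have hy' : (y : ℤ) * (y - 1) = ((y * (y - 1) : ℕ) : ℤ) := by
    rcases Nat.eq_zero_or_pos y with hy | hy
    · subst hy; simp
    · push_cast [Nat.cast_sub hy]; ring
  rcases Nat.even_or_odd' (x + y) with ⟨q, hq | hq⟩
  · have e1 : (x + y) / 2 = q := by omega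
    have e2 : (x + y - 1) / 2 = q - 1 := by omega
    rw [e1, e2]
    rcases Nat.eq_zero_or_pos q with hq0 | hq0
    · subst hq0; simp
    · have hxy : (x : ℤ) + y = 2 * q := by omega
      have goal : (2 * ((q : ℤ) * ((q : ℤ) - 1)) : ℤ) ≤ (x : ℤ) * (x - 1) + (y : ℤ) * (y - 1) := by
        have hy2 : (y : ℤ) = 2 * q - x := by linarith
        rw [hy2]
        nlinarith [sq_nonneg ((x : ℤ) - q)]
      rw [hx', hy'] at goal
      have hq' : ((q : ℤ) - 1) = ((q - 1 : ℕ) : ℤ) := by push_cast [Nat.cast_sub hq0]; ring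
      rw [hq'] at goal
      exact_mod_cast goal
  · have e1 : (x + y) / 2 = q := by omega
    have e2 : (x + y - 1) / 2 = q := by omega
    rw [e1, e2]
    have hxy : (x : ℤ) + y = 2 * q + 1 := by omega
    have goal : (2 * ((q : ℤ) * q) : ℤ) ≤ (x : ℤ) * (x - 1) + (y : ℤ) * (y - 1) := by
      have hy2 : (y : ℤ) = 2 * q + 1 - x := by linarith
      rw [hy2]
      have hprod : 0 ≤ ((x : ℤ) - q) * ((x : ℤ) - q - 1) := by
        rcases le_or_gt ((x : ℤ)) q with h | h
        · exact mul_nonneg_of_nonpos_of_nonpos (by linarith) (by linarith)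
        · exact mul_nonneg (by linarith) (by linarith)
      nlinarith
    rw [hx', hy'] at goal
    exact_mod_cast goal

/-- A two-colouring of `Fin m` has at least `⌊m/2⌋⌊(m-1)/2⌋` monochromatic increasing pairs. -/
theorem mono_pairs (m : ℕ) (P : Fin m → Prop) [DecidablePred P] :
    (m / 2) * ((m - 1) / 2) ≤
      ((Finset.univ : Finset (Fin m × Fin m)).filter
        (fun q => q.1 < q.2 ∧ (P q.1 ↔ P q.2))).card := by
  classical
  set T : Finset (Fin m) := Finset.univ.filter P with hT
  set F : Finset (Fin m) := Finset.univ.filter (fun i => ¬ P i) with hF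
  have hTF : T.card + F.card = m := by
    have := Finset.card_filter_add_card_filter_not (s := (Finset.univ : Finset (Fin m))) P
    simpa using this
  set A := (T ×ˢ T).filter (fun q => q.1 < q.2) with hA
  set B := (F ×ˢ F).filter (fun q => q.1 < q.2) with hB
  have hdisj : Disjoint A B := by
    rw [Finset.disjoint_left]
    intro q hqA hqB
    simp only [hA, hB, hT, hF, mem_filter, mem_product, mem_univ, true_and] at hqA hqB
    exact hqB.1.1 hqA.1.1
  have hsub : A ∪ B ⊆ (Finset.univ : Finset (Fin m × Fin m)).filter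
        (fun q => q.1 < q.2 ∧ (P q.1 ↔ P q.2)) := by
    intro q hq
    simp only [hA, hB, hT, hF, mem_union, mem_filter, mem_product, mem_univ, true_and] at hq ⊢
    rcases hq with ⟨⟨h1, h2⟩, h3⟩ | ⟨⟨h1, h2⟩, h3⟩
    · exact ⟨h3, by simp [h1, h2]⟩
    · exact ⟨h3, by simp [h1, h2]⟩
  have hcard := Finset.card_le_card hsub
  rw [Finset.card_union_of_disjoint hdisj] at hcard
  have hA2 := lt_pairs_card T
  have hB2 := lt_pairs_card F
  rw [← hA] at hA2
  rw [← hB] at hB2
  refine le_trans ?_ hcard
  -- arithmetic: 2 * (m/2 * ((m-1)/2)) ≤ a(a-1) + b(b-1) with a + b = m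
  have key : 2 * ((m / 2) * ((m - 1) / 2)) ≤ T.card * (T.card - 1) + F.card * (F.card - 1) := by
    have := mono_arith T.card F.card
    rw [hTF] at this
    exact this
  omega

theorem same_sign_mul_pos (x y : ℝ) (hx : x ≠ 0) (hy : y ≠ 0) (h : 0 < x ↔ 0 < y) :
    0 < x * y := by
  rcases lt_or_gt_of_ne hx with h1 | h1
  · have h2 : ¬ 0 < y := fun h' => absurd (h.2 h') (not_lt.2 h1.le)
    have h3 : y < 0 := lt_of_le_of_ne (not_lt.1 h2) hy
    exact mul_pos_of_neg_of_neg h1 h3
  · exact mul_pos h1 (h.1 h1)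

end Vale.Agent.H11.P040
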