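import Mathlib
import Vale.Agent.H11.P040Collinear

/-!
Helper lemmas for P040: two-page drawings of `K_{m,n}` in which the two classes are separated
along the spine.

Main lemma (`same_gap`): for two colourings `c c' : Fin m → Bool`,
`∑ k, [c k = c' k] * min k (m-1-k) ≤ #{(i,j) : i < j ∧ c i = c' j}`.
-/

namespace Vale.Agent.H11.P040

open Finset

/-- The depth of position `k` in `Fin m`. -/
def mu (m : ℕ) (k : Fin m) : ℕ := min (k : ℕ) (m - 1 - (k : ℕ))

theorem sum_range_mu : ∀ m : ℕ,
    ∑ k ∈ range m, min k (m - 1 - k) = (m / 2) * ((m - 1) / 2)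
  | 0 => by simp
  | 1 => by simp
  | (m + 2) => by
      have ih := sum_range_mu m
      rw [Finset.sum_range_succ, Finset.sum_range_succ']
      have h1 : ∀ k ∈ range m, min (k + 1) (m + 2 - 1 - (k + 1)) = min k (m - 1 - k) + 1 := by
        intro k hk
        rw [mem_range] at hk
        omega
      rw [Finset.sum_congr rfl h1, Finset.sum_add_distrib, ih]
      have h2 : min 0 (m + 2 - 1 - 0) = 0 := by simp
      have h3 : min (m + 1) (m + 2 - 1 - (m + 1)) = 0 := by simp
      rw [h2, h3]
      simp only [sum_const, card_range, smul_eq_mul, mul_one, add_zero]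
      rcases Nat.even_or_odd' m with ⟨q, rfl | rfl⟩
      · have e1 : 2 * q / 2 = q := by omega
        have e2 : (2 * q - 1) / 2 = q - 1 := by omega
        have e3 : (2 * q + 2) / 2 = q + 1 := by omega
        have e4 : (2 * q + 2 - 1) / 2 = q := by omega
        rw [e1, e2, e3, e4]
        rcases Nat.eq_zero_or_pos q with h | h
        · subst h; simp
        · obtain ⟨r, rfl⟩ : ∃ r, q = r + 1 := ⟨q - 1, by omega⟩
          simp only [Nat.add_sub_cancel]
          ring
      · have e1 : (2 * q + 1) / 2 = q := by omega
        have e2 : (2 * q + 1 - 1) / 2 = q := by omega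
        have e3 : (2 * q + 1 + 2) / 2 = q + 1 := by omega
        have e4 : (2 * q + 1 + 2 - 1) / 2 = q + 1 := by omega
        rw [e1, e2, e3, e4]
        ring

theorem sum_mu (m : ℕ) : ∑ k : Fin m, mu m k = (m / 2) * ((m - 1) / 2) := by
  rw [← sum_range_mu m]
  exact Fin.sum_univ_eq_sum_range (fun k => min k (m - 1 - k)) m

theorem card_pairs_snd {m : ℕ} (R : Fin m → Fin m → Prop) [∀ i k, Decidable (R i k)] :
    ((univ : Finset (Fin m × Fin m)).filter (fun p => R p.1 p.2)).card =
      ∑ k : Fin m, ((univ : Finset (Fin m)).filter (fun i => R i k)).card := by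
  simp only [Finset.card_filter]
  rw [Fintype.sum_prod_type, Finset.sum_comm]

theorem card_pairs_fst {m : ℕ} (R : Fin m → Fin m → Prop) [∀ i k, Decidable (R i k)] :
    ((univ : Finset (Fin m × Fin m)).filter (fun p => R p.1 p.2)).card =
      ∑ i : Fin m, ((univ : Finset (Fin m)).filter (fun k => R i k)).card := by
  simp only [Finset.card_filter]
  rw [Fintype.sum_prod_type]

/-- The arithmetic heart: with `p + q` and `p' + q'` differing by at most one (the first
not smaller), `p q + p' q' ≤ p p' + q q'`. -/
theorem halves_arith (p q p' q' : ℕ) (h : p + q = p' + q' ∨ p + q = p' + q' + 1) :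
    p * q + p' * q' ≤ p * p' + q * q' := by
  have key : (0 : ℤ) ≤ ((p : ℤ) - q') * ((p' : ℤ) - q) := by
    rcases h with h | h
    · have e : (p : ℤ) - q' = (p' : ℤ) - q := by
        have : (p : ℤ) + q = p' + q' := by exact_mod_cast h
        linarith
      rw [e]
      exact mul_self_nonneg _
    · have e : (p : ℤ) - q' = (p' : ℤ) - q + 1 := by
        have : (p : ℤ) + q = p' + q' + 1 := by exact_mod_cast h
        linarith
      rw [e]
      rcases le_or_gt (0 : ℤ) ((p' : ℤ) - q) with h0 | h0
      · exact mul_nonneg (by linarith) h0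
      · exact mul_nonneg_of_nonpos_of_nonpos (by linarith) (by linarith)
  have : (p : ℤ) * q + (p' : ℤ) * q' ≤ (p : ℤ) * p' + (q : ℤ) * q' := by nlinarith
  exact_mod_cast this

/-- `k` lies in the first half of `Fin m` (where `min k (m-1-k) = k`). -/
abbrev inF (m : ℕ) (k : Fin m) : Prop := 2 * (k : ℕ) + 1 ≤ m

theorem card_inF (m : ℕ) :
    ((univ : Finset (Fin m)).filter (fun i => inF m i)).card = min m ((m + 1) / 2) := by
  have e : (univ : Finset (Fin m)).filter (fun i => inF m i) =
      (univ : Finset (Fin m)).filter (fun i : Fin m => (i : ℕ) < (m + 1) / 2) := by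
    ext i
    simp only [mem_filter, mem_univ, true_and, inF]
    omega
  rw [e]
  exact Fin.card_filter_val_lt

/-- The key inequality for two vertices in the same gap of a two-page drawing. -/
theorem same_gap (m : ℕ) (c c' : Fin m → Bool) :
    ∑ k : Fin m, (if c k = c' k then mu m k else 0) ≤
      ((univ : Finset (Fin m × Fin m)).filter (fun p => p.1 < p.2 ∧ c p.1 = c' p.2)).card := by
  classical
  set P := (univ : Finset (Fin m × Fin m)).filter (fun p => p.1 < p.2 ∧ c p.1 = c' p.2) with hP
  set PF := (univ : Finset (Fin m × Fin m)).filter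
    (fun p => p.1 < p.2 ∧ c p.1 = c' p.2 ∧ inF m p.2) with hPF
  set PS := (univ : Finset (Fin m × Fin m)).filter
    (fun p => p.1 < p.2 ∧ c p.1 = c' p.2 ∧ ¬ inF m p.1) with hPS
  set PX := (univ : Finset (Fin m × Fin m)).filter
    (fun p => inF m p.1 ∧ ¬ inF m p.2 ∧ c p.1 = c' p.2) with hPX
  set DF := (univ : Finset (Fin m × Fin m)).filter
    (fun p => p.1 < p.2 ∧ inF m p.2 ∧ c p.1 ≠ c p.2) with hDF
  set DS := (univ : Finset (Fin m × Fin m)).filter
    (fun p => p.1 < p.2 ∧ ¬ inF m p.1 ∧ c' p.1 ≠ c' p.2) with hDS
  set Ft := (univ : Finset (Fin m)).filter (fun i => inF m i ∧ c i = true) with hFt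
  set Ff := (univ : Finset (Fin m)).filter (fun i => inF m i ∧ c i = false) with hFf
  set St := (univ : Finset (Fin m)).filter (fun i => ¬ inF m i ∧ c' i = true) with hSt
  set Sf := (univ : Finset (Fin m)).filter (fun i => ¬ inF m i ∧ c' i = false) with hSf
  -- the three parts of `P`
  have hparts : PF.card + PS.card + PX.card ≤ P.card := by
    have d1 : Disjoint PF PS := by
      rw [Finset.disjoint_left]
      intro p h1 h2
      simp only [hPF, hPS, mem_filter, mem_univ, true_and, inF] at h1 h2
      have := h1.1
      rw [Fin.lt_def] at this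
      omega
    have d2 : Disjoint (PF ∪ PS) PX := by
      rw [Finset.disjoint_left]
      intro p h1 h2
      simp only [hPF, hPS, hPX, mem_union, mem_filter, mem_univ, true_and, inF] at h1 h2
      rcases h1 with h1 | h1
      · exact h2.2.1 h1.2.2
      · exact h1.2.2 h2.1
    have hsub : PF ∪ PS ∪ PX ⊆ P := by
      intro p hp
      simp only [hPF, hPS, hPX, hP, mem_union, mem_filter, mem_univ, true_and, inF] at hp ⊢
      rcases hp with (hp | hp) | hp
      · exact ⟨hp.1, hp.2.1⟩
      · exact ⟨hp.1, hp.2.1⟩
      · refine ⟨?_, hp.2.2⟩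
        rw [Fin.lt_def]
        omega
    have := Finset.card_le_card hsub
    rw [Finset.card_union_of_disjoint d2, Finset.card_union_of_disjoint d1] at this
    exact this
  -- first half
  have hF : ∑ k : Fin m, (if inF m k ∧ c k = c' k then (k : ℕ) else 0) ≤ PF.card + DF.card := by
    have e1 : PF.card = ∑ k : Fin m,
        ((univ : Finset (Fin m)).filter (fun i => i < k ∧ c i = c' k ∧ inF m k)).card :=
      card_pairs_snd (fun i k => i < k ∧ c i = c' k ∧ inF m k)
    have e2 : DF.card = ∑ k : Fin m,
        ((univ : Finset (Fin m)).filter (fun i => i < k ∧ inF m k ∧ c i ≠ c k)).card :=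
      card_pairs_snd (fun i k => i < k ∧ inF m k ∧ c i ≠ c k)
    rw [e1, e2, ← Finset.sum_add_distrib]
    apply Finset.sum_le_sum
    intro k _
    split_ifs with h
    · have f1 : (univ : Finset (Fin m)).filter (fun i => i < k ∧ c i = c' k ∧ inF m k) =
          (Finset.Iio k).filter (fun i => c i = c k) := by
        ext i
        simp only [mem_filter, mem_univ, true_and, Finset.mem_Iio]
        rw [← h.2]
        exact ⟨fun hh => ⟨hh.1, hh.2.1⟩, fun hh => ⟨hh.1, hh.2, h.1⟩⟩
      have f2 : (univ : Finset (Fin m)).filter (fun i => i < k ∧ inF m k ∧ c i ≠ c k) =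
          (Finset.Iio k).filter (fun i => ¬ (c i = c k)) := by
        ext i
        simp only [mem_filter, mem_univ, true_and, Finset.mem_Iio]
        exact ⟨fun hh => ⟨hh.1, hh.2.2⟩, fun hh => ⟨hh.1, h.1, hh.2⟩⟩
      rw [f1, f2, Finset.card_filter_add_card_filter_not, Fin.card_Iio]
    · exact Nat.zero_le _
  -- second half
  have hS : ∑ k : Fin m, (if ¬ inF m k ∧ c k = c' k then m - 1 - (k : ℕ) else 0) ≤
      PS.card + DS.card := by
    have e1 : PS.card = ∑ i : Fin m,
        ((univ : Finset (Fin m)).filter (fun j => i < j ∧ c i = c' j ∧ ¬ inF m i)).card :=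
      card_pairs_fst (fun i j => i < j ∧ c i = c' j ∧ ¬ inF m i)
    have e2 : DS.card = ∑ i : Fin m,
        ((univ : Finset (Fin m)).filter (fun j => i < j ∧ ¬ inF m i ∧ c' i ≠ c' j)).card :=
      card_pairs_fst (fun i j => i < j ∧ ¬ inF m i ∧ c' i ≠ c' j)
    rw [e1, e2, ← Finset.sum_add_distrib]
    apply Finset.sum_le_sum
    intro k _
    split_ifs with h
    · have f1 : (univ : Finset (Fin m)).filter (fun j => k < j ∧ c k = c' j ∧ ¬ inF m k) =
          (Finset.Ioi k).filter (fun j => c' k = c' j) := by
        ext j
        simp only [mem_filter, mem_univ, true_and, Finset.mem_Ioi]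
        rw [h.2]
        exact ⟨fun hh => ⟨hh.1, hh.2.1⟩, fun hh => ⟨hh.1, hh.2, h.1⟩⟩
      have f2 : (univ : Finset (Fin m)).filter (fun j => k < j ∧ ¬ inF m k ∧ c' k ≠ c' j) =
          (Finset.Ioi k).filter (fun j => ¬ (c' k = c' j)) := by
        ext j
        simp only [mem_filter, mem_univ, true_and, Finset.mem_Ioi]
        exact ⟨fun hh => ⟨hh.1, hh.2.2⟩, fun hh => ⟨hh.1, h.1, hh.2⟩⟩
      rw [f1, f2, Finset.card_filter_add_card_filter_not, Fin.card_Ioi]
    · exact Nat.zero_le _
  -- the deficits
  have hDFle : DF.card ≤ Ft.card * Ff.card := by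
    rw [← Finset.card_product]
    apply Finset.card_le_card_of_injOn
      (fun p : Fin m × Fin m => if c p.1 = true then (p.1, p.2) else (p.2, p.1))
    · intro p hp
      simp only [hDF, Finset.coe_filter, mem_univ, true_and, Set.mem_ofPred_eq, inF] at hp
      obtain ⟨h1, h2, h3⟩ := hp
      have h1' := h1
      rw [Fin.lt_def] at h1'
      simp only [Finset.mem_coe]
      by_cases hc : c p.1 = true
      · rw [if_pos hc]
        have hc2 : c p.2 = false := by
          rcases Bool.eq_false_or_eq_true (c p.2) with h | h
          · exact absurd (hc.trans h.symm) h3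
          · exact h
        simp only [hFt, hFf, mem_product, mem_filter, mem_univ, true_and, inF]
        exact ⟨⟨by omega, hc⟩, h2, hc2⟩
      · rw [if_neg hc]
        have hc1 : c p.1 = false := by simpa using hc
        have hc2 : c p.2 = true := by
          rcases Bool.eq_false_or_eq_true (c p.2) with h | h
          · exact h
          · exact absurd (hc1.trans h.symm) h3
        simp only [hFt, hFf, mem_product, mem_filter, mem_univ, true_and, inF]
        exact ⟨⟨h2, hc2⟩, by omega, hc1⟩
    · intro p hp p' hp' heq
      simp only [hDF, Finset.coe_filter, mem_univ, true_and, Set.mem_ofPred_eq] at hp hp'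
      have h1 := hp.1
      have h1' := hp'.1
      by_cases hc : c p.1 = true <;> by_cases hc' : c p'.1 = true
      · simp only [if_pos hc, if_pos hc', Prod.mk.injEq] at heq
        exact Prod.ext heq.1 heq.2
      · simp only [if_pos hc, if_neg hc', Prod.mk.injEq] at heq
        rw [heq.1, heq.2] at h1
        exact absurd h1 (lt_asymm h1')
      · simp only [if_neg hc, if_pos hc', Prod.mk.injEq] at heq
        rw [← heq.1, ← heq.2] at h1'
        exact absurd h1 (lt_asymm h1')
      · simp only [if_neg hc, if_neg hc', Prod.mk.injEq] at heq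
        exact Prod.ext heq.2 heq.1
  have hDSle : DS.card ≤ St.card * Sf.card := by
    rw [← Finset.card_product]
    apply Finset.card_le_card_of_injOn
      (fun p : Fin m × Fin m => if c' p.1 = true then (p.1, p.2) else (p.2, p.1))
    · intro p hp
      simp only [hDS, Finset.coe_filter, mem_univ, true_and, Set.mem_ofPred_eq, inF] at hp
      obtain ⟨h1, h2, h3⟩ := hp
      have h1' := h1
      rw [Fin.lt_def] at h1'
      simp only [Finset.mem_coe]
      by_cases hc : c' p.1 = true
      · rw [if_pos hc]
        have hc2 : c' p.2 = false := by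
          rcases Bool.eq_false_or_eq_true (c' p.2) with h | h
          · exact absurd (hc.trans h.symm) h3
          · exact h
        simp only [hSt, hSf, mem_product, mem_filter, mem_univ, true_and, inF]
        exact ⟨⟨h2, hc⟩, by omega, hc2⟩
      · rw [if_neg hc]
        have hc1 : c' p.1 = false := by simpa using hc
        have hc2 : c' p.2 = true := by
          rcases Bool.eq_false_or_eq_true (c' p.2) with h | h
          · exact h
          · exact absurd (hc1.trans h.symm) h3
        simp only [hSt, hSf, mem_product, mem_filter, mem_univ, true_and, inF]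
        exact ⟨⟨by omega, hc2⟩, h2, hc1⟩
    · intro p hp p' hp' heq
      simp only [hDS, Finset.coe_filter, mem_univ, true_and, Set.mem_ofPred_eq] at hp hp'
      have h1 := hp.1
      have h1' := hp'.1
      by_cases hc : c' p.1 = true <;> by_cases hc' : c' p'.1 = true
      · simp only [if_pos hc, if_pos hc', Prod.mk.injEq] at heq
        exact Prod.ext heq.1 heq.2
      · simp only [if_pos hc, if_neg hc', Prod.mk.injEq] at heq
        rw [heq.1, heq.2] at h1
        exact absurd h1 (lt_asymm h1')
      · simp only [if_neg hc, if_pos hc', Prod.mk.injEq] at heq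
        rw [← heq.1, ← heq.2] at h1'
        exact absurd h1 (lt_asymm h1')
      · simp only [if_neg hc, if_neg hc', Prod.mk.injEq] at heq
        exact Prod.ext heq.2 heq.1
  -- the cross pairs
  have hX : Ft.card * St.card + Ff.card * Sf.card ≤ PX.card := by
    rw [← Finset.card_product, ← Finset.card_product]
    have d : Disjoint (Ft ×ˢ St) (Ff ×ˢ Sf) := by
      rw [Finset.disjoint_left]
      intro p h1 h2
      simp only [hFt, hFf, mem_product, mem_filter, mem_univ, true_and] at h1 h2
      have := h1.1.2.symm.trans h2.1.2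
      exact absurd this (by simp)
    rw [← Finset.card_union_of_disjoint d]
    apply Finset.card_le_card
    intro p hp
    simp only [hFt, hFf, hSt, hSf, hPX, mem_union, mem_product, mem_filter, mem_univ,
      true_and] at hp ⊢
    rcases hp with ⟨⟨h1, h2⟩, h3, h4⟩ | ⟨⟨h1, h2⟩, h3, h4⟩
    · exact ⟨h1, h3, h2.trans h4.symm⟩
    · exact ⟨h1, h3, h2.trans h4.symm⟩
  -- sizes of the halves
  have hcF : Ft.card + Ff.card = min m ((m + 1) / 2) := by
    rw [← card_inF m]
    have e1 : Ft = ((univ : Finset (Fin m)).filter (fun i => inF m i)).filter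
        (fun i => c i = true) := by
      rw [Finset.filter_filter]
    have e2 : Ff = ((univ : Finset (Fin m)).filter (fun i => inF m i)).filter
        (fun i => ¬ (c i = true)) := by
      rw [Finset.filter_filter, hFf]
      ext i
      simp
    rw [e1, e2, Finset.card_filter_add_card_filter_not]
  have hcS : St.card + Sf.card + min m ((m + 1) / 2) = m := by
    have e1 : St = ((univ : Finset (Fin m)).filter (fun i => ¬ inF m i)).filter
        (fun i => c' i = true) := by
      rw [Finset.filter_filter]
    have e2 : Sf = ((univ : Finset (Fin m)).filter (fun i => ¬ inF m i)).filter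
        (fun i => ¬ (c' i = true)) := by
      rw [Finset.filter_filter, hSf]
      ext i
      simp
    rw [e1, e2, Finset.card_filter_add_card_filter_not, ← card_inF m, add_comm]
    have := Finset.card_filter_add_card_filter_not (s := (univ : Finset (Fin m)))
      (fun i => inF m i)
    simpa using this
  have harith : Ft.card * Ff.card + St.card * Sf.card ≤ Ft.card * St.card + Ff.card * Sf.card := by
    apply halves_arith
    omega
  -- assemble
  have hsplit : ∑ k : Fin m, (if c k = c' k then mu m k else 0) =
      ∑ k : Fin m, (if inF m k ∧ c k = c' k then (k : ℕ) else 0) +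
      ∑ k : Fin m, (if ¬ inF m k ∧ c k = c' k then m - 1 - (k : ℕ) else 0) := by
    rw [← Finset.sum_add_distrib]
    apply Finset.sum_congr rfl
    intro k _
    by_cases h1 : inF m k <;> by_cases h2 : c k = c' k
    · simp only [h1, h2, and_self, if_true, not_true_eq_false, false_and, if_false, add_zero, mu]
      simp only [inF] at h1
      omega
    · simp [h1, h2]
    · simp only [h1, h2, and_true, if_true, if_false, not_false_eq_true, zero_add, mu]
      simp only [inF] at h1
      omega
    · simp [h1, h2]
  rw [hsplit]
  omega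

end Vale.Agent.H11.P040
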