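import Mathlib
import Vale.Agent.H11.P040TwoPage

/-!
Helper lemmas for P040: two-page drawings of `K_{m,n}` with four blocks `A B A B` on the spine.

Abstract setting: positions `0, …, m-1` of the `A`-vertices in the order seen from the second
gap; the first `P` positions form the large block `L` (`m ≤ 2 P`), the remaining `m - P`
positions the small block `S`.  Seen from the first gap the order is `S` followed by `L`.
-/

namespace Vale.Agent.H11.P040

open Finset

/-- Cardinality of an interval of `Fin m`. -/
theorem card_fin_Ico (m a b : ℕ) (hb : b ≤ m) :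
    ((univ : Finset (Fin m)).filter (fun x : Fin m => a ≤ (x : ℕ) ∧ (x : ℕ) < b)).card = b - a := by
  have h : ((univ : Finset (Fin m)).filter (fun x : Fin m => a ≤ (x : ℕ) ∧ (x : ℕ) < b)).map
      Fin.valEmbedding = Finset.Ico a b := by
    ext x
    simp only [mem_map, mem_filter, mem_univ, true_and, Fin.valEmbedding_apply, mem_Ico]
    constructor
    · rintro ⟨y, hy, rfl⟩
      exact hy
    · intro hx
      exact ⟨⟨x, by omega⟩, hx, rfl⟩
  rw [← Finset.card_map Fin.valEmbedding, h, Nat.card_Ico]

/-- The diagonal part `D` of the large block: its first `⌈(2P-m)/2⌉` and last `⌊(2P-m)/2⌋`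
positions. -/
def fbD (m P k : ℕ) : Prop :=
  k < (2 * P - m + 1) / 2 ∨ ((2 * P - m + 1) / 2 + (m - P) ≤ k ∧ k < P)

instance (m P k : ℕ) : Decidable (fbD m P k) := by
  unfold fbD
  infer_instance

/-- The weight of a diagonal position. -/
def fbDel (m P k : ℕ) : ℕ :=
  if k < (2 * P - m + 1) / 2 then min k (2 * P - m - 1 - k)
  else min (k - (m - P)) (2 * P - m - 1 - (k - (m - P)))

/-- The simple pairs. -/
def fbSimple (m P k k' : ℕ) : Prop :=
  (k < k' ∧ k' < P ∧ ¬ (fbD m P k ∧ fbD m P k')) ∨ (P ≤ k' ∧ k' < k)

instance (m P k k' : ℕ) : Decidable (fbSimple m P k k') := by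
  unfold fbSimple
  infer_instance

/-- The coupling weights. -/
def fbJ (m P : ℕ) (k k' : Fin m) : ℕ :=
  (if fbSimple m P k k' then 1 else 0) +
    (if k = k' then (if fbD m P k then fbDel m P k else 0) else 0)

/-- The rank of a position in the order seen from the first gap. -/
def fbRk (m P k : ℕ) : ℕ := if k < P then k + (m - P) else k - P

/-- The rank map as a permutation of `Fin m`. -/
def fbEquiv (m P : ℕ) (hP : P ≤ m) : Fin m ≃ Fin m where
  toFun k := ⟨fbRk m P k, by have := k.isLt; unfold fbRk; split_ifs <;> omega⟩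
  invFun t := ⟨if (t : ℕ) < m - P then t + P else t - (m - P), by
    have := t.isLt; split_ifs <;> omega⟩
  left_inv k := by
    have := k.isLt
    apply Fin.ext
    simp only [fbRk]
    split_ifs <;> omega
  right_inv t := by
    have := t.isLt
    apply Fin.ext
    simp only [fbRk]
    split_ifs <;> omega

theorem fbEquiv_val (m P : ℕ) (hP : P ≤ m) (k : Fin m) :
    ((fbEquiv m P hP k : Fin m) : ℕ) = fbRk m P k := rfl

/-- The same-gap inequality in the order seen from the first gap. -/
theorem same_gap_rk (m P : ℕ) (hP : P ≤ m) (c c' : Fin m → Bool) :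
    ∑ k : Fin m, (if c k = c' k then min (fbRk m P k) (m - 1 - fbRk m P k) else 0) ≤
      ((univ : Finset (Fin m × Fin m)).filter
        (fun x => fbRk m P x.1 < fbRk m P x.2 ∧ c x.1 = c' x.2)).card := by
  classical
  set e := fbEquiv m P hP with he
  have key := same_gap m (fun t => c (e.symm t)) (fun t => c' (e.symm t))
  have hL : ∑ k : Fin m, (if c k = c' k then min (fbRk m P k) (m - 1 - fbRk m P k) else 0) =
      ∑ t : Fin m, (if c (e.symm t) = c' (e.symm t) then mu m t else 0) := by
    rw [← Equiv.sum_comp e (fun t => if c (e.symm t) = c' (e.symm t) then mu m t else 0)]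
    apply Finset.sum_congr rfl
    intro k _
    simp only [Equiv.symm_apply_apply, mu]
    rfl
  rw [hL]
  refine le_trans key ?_
  apply Finset.card_le_card_of_injOn (fun x : Fin m × Fin m => (e.symm x.1, e.symm x.2))
  · intro x hx
    have hx' := (Finset.mem_filter.mp (Finset.mem_coe.mp hx)).2
    have hmem : (e.symm x.1, e.symm x.2) ∈ (univ : Finset (Fin m × Fin m)).filter
        (fun x => fbRk m P x.1 < fbRk m P x.2 ∧ c x.1 = c' x.2) := by
      rw [Finset.mem_filter]
      refine ⟨Finset.mem_univ _, ?_, hx'.2⟩
      have h1 : fbRk m P (e.symm x.1) = x.1 := by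
        rw [← fbEquiv_val m P hP, Equiv.apply_symm_apply]
      have h2 : fbRk m P (e.symm x.2) = x.2 := by
        rw [← fbEquiv_val m P hP, Equiv.apply_symm_apply]
      show fbRk m P (e.symm x.1) < fbRk m P (e.symm x.2)
      rw [h1, h2]
      exact hx'.1
    exact hmem
  · intro x _ y _ h
    simp only [Prod.mk.injEq, EmbeddingLike.apply_eq_iff_eq] at h
    exact Prod.ext h.1 h.2

/-- Row sums of the coupling: the depth seen from the first gap. -/
theorem fbJ_row (m P : ℕ) (hP : P ≤ m) (h2 : m ≤ 2 * P) (k : Fin m) :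
    ∑ k' : Fin m, fbJ m P k k' = min (fbRk m P k) (m - 1 - fbRk m P k) := by
  have hk := k.isLt
  have hsum : ∑ k' : Fin m, fbJ m P k k' =
      ((univ : Finset (Fin m)).filter (fun k' : Fin m => fbSimple m P k k')).card +
        (if fbD m P k then fbDel m P k else 0) := by
    unfold fbJ
    rw [Finset.sum_add_distrib, Finset.card_filter, Finset.sum_ite_eq]
    simp
  rw [hsum]
  by_cases h1 : (k : ℕ) < (2 * P - m + 1) / 2
  · have hc : ((univ : Finset (Fin m)).filter (fun k' : Fin m => fbSimple m P k k')) =
        (univ : Finset (Fin m)).filter (fun x : Fin m => (2 * P - m + 1) / 2 ≤ (x : ℕ) ∧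
          (x : ℕ) < (2 * P - m + 1) / 2 + (m - P)) := by
      apply Finset.filter_congr
      intro x _
      have := x.isLt
      unfold fbSimple fbD
      omega
    rw [hc, card_fin_Ico _ _ _ (by omega)]
    have hD : fbD m P k := Or.inl h1
    rw [if_pos hD]
    unfold fbDel fbRk
    rw [if_pos h1, if_pos (by omega)]
    omega
  · by_cases h3 : (k : ℕ) < (2 * P - m + 1) / 2 + (m - P)
    · have hc : ((univ : Finset (Fin m)).filter (fun k' : Fin m => fbSimple m P k k')) =
          (univ : Finset (Fin m)).filter (fun x : Fin m => (k : ℕ) + 1 ≤ (x : ℕ) ∧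
            (x : ℕ) < P) := by
        apply Finset.filter_congr
        intro x _
        have := x.isLt
        unfold fbSimple fbD
        omega
      rw [hc, card_fin_Ico _ _ _ hP]
      have hD : ¬ fbD m P k := by
        unfold fbD
        omega
      rw [if_neg hD]
      unfold fbRk
      rw [if_pos (by omega)]
      omega
    · by_cases h4 : (k : ℕ) < P
      · have hc : ((univ : Finset (Fin m)).filter (fun k' : Fin m => fbSimple m P k k')) =
            (univ : Finset (Fin m)).filter (fun x : Fin m => m ≤ (x : ℕ) ∧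
              (x : ℕ) < m) := by
          apply Finset.filter_congr
          intro x _
          have := x.isLt
          unfold fbSimple fbD
          omega
        rw [hc, card_fin_Ico _ _ _ le_rfl]
        have hD : fbD m P k := by
          unfold fbD
          omega
        rw [if_pos hD]
        unfold fbDel fbRk
        rw [if_neg h1, if_pos h4]
        omega
      · have hc : ((univ : Finset (Fin m)).filter (fun k' : Fin m => fbSimple m P k k')) =
            (univ : Finset (Fin m)).filter (fun x : Fin m => P ≤ (x : ℕ) ∧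
              (x : ℕ) < (k : ℕ)) := by
          apply Finset.filter_congr
          intro x _
          have := x.isLt
          unfold fbSimple fbD
          omega
        rw [hc, card_fin_Ico _ _ _ (by omega)]
        have hD : ¬ fbD m P k := by
          unfold fbD
          omega
        rw [if_neg hD]
        unfold fbRk
        rw [if_neg h4]
        omega

/-- Column sums of the coupling: the depth seen from the second gap. -/
theorem fbJ_col (m P : ℕ) (hP : P ≤ m) (h2 : m ≤ 2 * P) (k' : Fin m) :
    ∑ k : Fin m, fbJ m P k k' = min (k' : ℕ) (m - 1 - (k' : ℕ)) := by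
  have hk := k'.isLt
  have hsum : ∑ k : Fin m, fbJ m P k k' =
      ((univ : Finset (Fin m)).filter (fun k : Fin m => fbSimple m P k k')).card +
        (if fbD m P k' then fbDel m P k' else 0) := by
    unfold fbJ
    rw [Finset.sum_add_distrib, Finset.card_filter, Finset.sum_ite_eq']
    simp
  rw [hsum]
  by_cases h1 : (k' : ℕ) < (2 * P - m + 1) / 2
  · have hc : ((univ : Finset (Fin m)).filter (fun k : Fin m => fbSimple m P k k')) =
        (univ : Finset (Fin m)).filter (fun x : Fin m => m ≤ (x : ℕ) ∧ (x : ℕ) < m) := by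
      apply Finset.filter_congr
      intro x _
      have := x.isLt
      unfold fbSimple fbD
      omega
    rw [hc, card_fin_Ico _ _ _ le_rfl]
    have hD : fbD m P k' := Or.inl h1
    rw [if_pos hD]
    unfold fbDel
    rw [if_pos h1]
    omega
  · by_cases h3 : (k' : ℕ) < (2 * P - m + 1) / 2 + (m - P)
    · have hc : ((univ : Finset (Fin m)).filter (fun k : Fin m => fbSimple m P k k')) =
          (univ : Finset (Fin m)).filter (fun x : Fin m => 0 ≤ (x : ℕ) ∧
            (x : ℕ) < (k' : ℕ)) := by
        apply Finset.filter_congr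
        intro x _
        have := x.isLt
        unfold fbSimple fbD
        omega
      rw [hc, card_fin_Ico _ _ _ (by omega)]
      have hD : ¬ fbD m P k' := by
        unfold fbD
        omega
      rw [if_neg hD]
      omega
    · by_cases h4 : (k' : ℕ) < P
      · have hc : ((univ : Finset (Fin m)).filter (fun k : Fin m => fbSimple m P k k')) =
            (univ : Finset (Fin m)).filter (fun x : Fin m => (2 * P - m + 1) / 2 ≤ (x : ℕ) ∧
              (x : ℕ) < (2 * P - m + 1) / 2 + (m - P)) := by
          apply Finset.filter_congr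
          intro x _
          have := x.isLt
          unfold fbSimple fbD
          omega
        rw [hc, card_fin_Ico _ _ _ (by omega)]
        have hD : fbD m P k' := by
          unfold fbD
          omega
        rw [if_pos hD]
        unfold fbDel
        rw [if_neg h1]
        omega
      · have hc : ((univ : Finset (Fin m)).filter (fun k : Fin m => fbSimple m P k k')) =
            (univ : Finset (Fin m)).filter (fun x : Fin m => (k' : ℕ) + 1 ≤ (x : ℕ) ∧
              (x : ℕ) < m) := by
          apply Finset.filter_congr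
          intro x _
          have := x.isLt
          unfold fbSimple fbD
          omega
        rw [hc, card_fin_Ico _ _ _ le_rfl]
        have hD : ¬ fbD m P k' := by
          unfold fbD
          omega
        rw [if_neg hD]
        omega

/-- The increasing enumeration of the diagonal part. -/
def fbEmb (m P : ℕ) (hP : P ≤ m) (t : Fin (2 * P - m)) : Fin m :=
  ⟨if (t : ℕ) < (2 * P - m + 1) / 2 then t else t + (m - P), by
    have := t.isLt
    split_ifs <;> omega⟩

theorem fbEmb_val (m P : ℕ) (hP : P ≤ m) (t : Fin (2 * P - m)) :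
    ((fbEmb m P hP t : Fin m) : ℕ) =
      if (t : ℕ) < (2 * P - m + 1) / 2 then (t : ℕ) else t + (m - P) := rfl

theorem fbEmb_lt (m P : ℕ) (hP : P ≤ m) (t t' : Fin (2 * P - m)) (h : t < t') :
    fbEmb m P hP t < fbEmb m P hP t' := by
  have h' : (t : ℕ) < (t' : ℕ) := h
  show ((fbEmb m P hP t : Fin m) : ℕ) < ((fbEmb m P hP t' : Fin m) : ℕ)
  rw [fbEmb_val, fbEmb_val]
  split_ifs <;> omega

theorem fbEmb_injective (m P : ℕ) (hP : P ≤ m) : Function.Injective (fbEmb m P hP) := by
  intro t t' h
  rcases lt_trichotomy t t' with h1 | h1 | h1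
  · exact absurd h (ne_of_lt (fbEmb_lt m P hP t t' h1))
  · exact h1
  · exact absurd h.symm (ne_of_lt (fbEmb_lt m P hP t' t h1))

theorem fbEmb_D (m P : ℕ) (hP : P ≤ m) (t : Fin (2 * P - m)) :
    fbD m P (fbEmb m P hP t) := by
  have := t.isLt
  unfold fbD
  rw [fbEmb_val]
  split_ifs <;> omega

theorem fbEmb_ltP (m P : ℕ) (hP : P ≤ m) (t : Fin (2 * P - m)) :
    ((fbEmb m P hP t : Fin m) : ℕ) < P := by
  have := t.isLt
  rw [fbEmb_val]
  split_ifs <;> omega

theorem fbEmb_del (m P : ℕ) (hP : P ≤ m) (t : Fin (2 * P - m)) :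
    fbDel m P (fbEmb m P hP t) = mu (2 * P - m) t := by
  have := t.isLt
  unfold fbDel mu
  rw [fbEmb_val]
  split_ifs <;> omega

theorem fbEmb_image (m P : ℕ) (hP : P ≤ m) :
    (univ : Finset (Fin (2 * P - m))).image (fbEmb m P hP) =
      (univ : Finset (Fin m)).filter (fun k : Fin m => fbD m P k) := by
  ext k
  simp only [mem_image, mem_univ, true_and, mem_filter]
  constructor
  · rintro ⟨t, rfl⟩
    exact fbEmb_D m P hP t
  · intro hk
    have hkm := k.isLt
    unfold fbD at hk
    by_cases h1 : (k : ℕ) < (2 * P - m + 1) / 2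
    · refine ⟨⟨k, by omega⟩, ?_⟩
      apply Fin.ext
      rw [fbEmb_val]
      simp only
      rw [if_pos h1]
    · refine ⟨⟨k - (m - P), by omega⟩, ?_⟩
      apply Fin.ext
      rw [fbEmb_val]
      simp only
      rw [if_neg (by omega)]
      omega

/-- The key inequality for two vertices in different gaps. -/
theorem fb_cross (m P : ℕ) (hP : P ≤ m) (c c' : Fin m → Bool) :
    ∑ x : Fin m × Fin m, (if c x.1 = c' x.2 then fbJ m P x.1 x.2 else 0) ≤
      ((univ : Finset (Fin m × Fin m)).filter
        (fun x => x.1 < x.2 ∧ (x.2 : ℕ) < P ∧ c x.1 = c' x.2)).card +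
      ((univ : Finset (Fin m × Fin m)).filter
        (fun x => P ≤ (x.1 : ℕ) ∧ x.1 < x.2 ∧ c' x.1 = c x.2)).card := by
  classical
  set A := (univ : Finset (Fin m × Fin m)).filter
    (fun x => x.1 < x.2 ∧ (x.2 : ℕ) < P ∧ c x.1 = c' x.2) with hA
  set B := (univ : Finset (Fin m × Fin m)).filter
    (fun x => P ≤ (x.1 : ℕ) ∧ x.1 < x.2 ∧ c' x.1 = c x.2) with hB
  set A1 := (univ : Finset (Fin m × Fin m)).filter
    (fun x => x.1 < x.2 ∧ (x.2 : ℕ) < P ∧ ¬ (fbD m P x.1 ∧ fbD m P x.2) ∧ c x.1 = c' x.2) with hA1
  set A2 := (univ : Finset (Fin m × Fin m)).filter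
    (fun x => x.1 < x.2 ∧ (x.2 : ℕ) < P ∧ (fbD m P x.1 ∧ fbD m P x.2) ∧ c x.1 = c' x.2) with hA2
  set B' := (univ : Finset (Fin m × Fin m)).filter
    (fun x => P ≤ (x.2 : ℕ) ∧ x.2 < x.1 ∧ c x.1 = c' x.2) with hB'
  -- split the sum
  have hsplit : ∑ x : Fin m × Fin m, (if c x.1 = c' x.2 then fbJ m P x.1 x.2 else 0) =
      ((univ : Finset (Fin m × Fin m)).filter
        (fun x => c x.1 = c' x.2 ∧ fbSimple m P x.1 x.2)).card +
      ∑ k : Fin m, (if fbD m P k then (if c k = c' k then fbDel m P k else 0) else 0) := by
    rw [Finset.card_filter, Fintype.sum_prod_type, Fintype.sum_prod_type, ← Finset.sum_add_distrib]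
    apply Finset.sum_congr rfl
    intro k _
    have h2 : ∑ k' : Fin m, (if k = k' then
        (if c k = c' k' then (if fbD m P k then fbDel m P k else 0) else 0) else 0) =
        (if fbD m P k then (if c k = c' k then fbDel m P k else 0) else 0) := by
      rw [Finset.sum_ite_eq]
      simp only [mem_univ, if_true]
      split_ifs <;> rfl
    rw [← h2, ← Finset.sum_add_distrib]
    apply Finset.sum_congr rfl
    intro k' _
    unfold fbJ
    split_ifs <;> simp_all
  rw [hsplit]
  -- the simple part
  have hpart1 : ((univ : Finset (Fin m × Fin m)).filter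
      (fun x => c x.1 = c' x.2 ∧ fbSimple m P x.1 x.2)).card ≤ A1.card + B.card := by
    have hsub : ((univ : Finset (Fin m × Fin m)).filter
        (fun x => c x.1 = c' x.2 ∧ fbSimple m P x.1 x.2)) ⊆ A1 ∪ B' := by
      intro x hx
      rw [Finset.mem_filter] at hx
      obtain ⟨-, hc, hs⟩ := hx
      rw [Finset.mem_union, hA1, hB', Finset.mem_filter, Finset.mem_filter]
      unfold fbSimple at hs
      rcases hs with ⟨h1, h2, h3⟩ | ⟨h1, h2⟩
      · exact Or.inl ⟨Finset.mem_univ _, h1, h2, h3, hc⟩
      · exact Or.inr ⟨Finset.mem_univ _, h1, h2, hc⟩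
    have hB'B : B'.card ≤ B.card := by
      apply Finset.card_le_card_of_injOn (fun x : Fin m × Fin m => (x.2, x.1))
      · intro x hx
        have hx' := (Finset.mem_filter.mp (Finset.mem_coe.mp hx)).2
        have hmem : (x.2, x.1) ∈ B := by
          rw [hB, Finset.mem_filter]
          exact ⟨Finset.mem_univ _, hx'.1, hx'.2.1, hx'.2.2.symm⟩
        exact hmem
      · intro x _ y _ h
        simp only [Prod.mk.injEq] at h
        exact Prod.ext h.2 h.1
    calc _ ≤ (A1 ∪ B').card := Finset.card_le_card hsub
      _ ≤ A1.card + B'.card := Finset.card_union_le _ _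
      _ ≤ A1.card + B.card := Nat.add_le_add_left hB'B _
  -- the diagonal part
  have hpart2 : ∑ k : Fin m, (if fbD m P k then (if c k = c' k then fbDel m P k else 0) else 0) ≤
      A2.card := by
    rw [← Finset.sum_filter, ← fbEmb_image m P hP,
      Finset.sum_image (fun t _ t' _ h => fbEmb_injective m P hP h)]
    have key := same_gap (2 * P - m) (fun t => c (fbEmb m P hP t)) (fun t => c' (fbEmb m P hP t))
    have e1 : ∑ t : Fin (2 * P - m), (if c (fbEmb m P hP t) = c' (fbEmb m P hP t) then
        fbDel m P (fbEmb m P hP t) else 0) =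
        ∑ t : Fin (2 * P - m), (if c (fbEmb m P hP t) = c' (fbEmb m P hP t) then
          mu (2 * P - m) t else 0) := by
      apply Finset.sum_congr rfl
      intro t _
      rw [fbEmb_del]
    rw [e1]
    refine le_trans key ?_
    apply Finset.card_le_card_of_injOn
      (fun x : Fin (2 * P - m) × Fin (2 * P - m) => (fbEmb m P hP x.1, fbEmb m P hP x.2))
    · intro x hx
      have hx' := (Finset.mem_filter.mp (Finset.mem_coe.mp hx)).2
      have hmem : (fbEmb m P hP x.1, fbEmb m P hP x.2) ∈ A2 := by
        rw [hA2, Finset.mem_filter]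
        exact ⟨Finset.mem_univ _, fbEmb_lt m P hP _ _ hx'.1, fbEmb_ltP m P hP _,
          ⟨fbEmb_D m P hP _, fbEmb_D m P hP _⟩, hx'.2⟩
      exact hmem
    · intro x _ y _ h
      simp only [Prod.mk.injEq] at h
      exact Prod.ext (fbEmb_injective m P hP h.1) (fbEmb_injective m P hP h.2)
  have hAA : A1.card + A2.card ≤ A.card := by
    have hdisj : Disjoint A1 A2 := by
      rw [Finset.disjoint_left]
      intro x h1 h2
      rw [hA1, Finset.mem_filter] at h1
      rw [hA2, Finset.mem_filter] at h2
      exact h1.2.2.2.1 h2.2.2.2.1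
    rw [← Finset.card_union_of_disjoint hdisj]
    apply Finset.card_le_card
    intro x hx
    rw [Finset.mem_union, hA1, hA2, Finset.mem_filter, Finset.mem_filter] at hx
    rw [hA, Finset.mem_filter]
    rcases hx with ⟨-, h1, h2, -, h4⟩ | ⟨-, h1, h2, -, h4⟩
    · exact ⟨Finset.mem_univ _, h1, h2, h4⟩
    · exact ⟨Finset.mem_univ _, h1, h2, h4⟩
  omega

/-- The number of crossings forced between the stars of two `B`-vertices `j`, `l` in the abstract
setting: `g j = true` means that `j` lies in the first gap, and `col j` is the colouring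
(page assignment) of the edges at `j`. -/
def fbQ (m P : ℕ) {n : ℕ} (g : Fin n → Bool) (col : Fin n → Fin m → Bool) (j l : Fin n) : ℕ :=
  if g j = true then
    if g l = true then
      ((univ : Finset (Fin m × Fin m)).filter
        (fun x => fbRk m P x.1 < fbRk m P x.2 ∧ col j x.1 = col l x.2)).card
    else
      ((univ : Finset (Fin m × Fin m)).filter
        (fun x => x.1 < x.2 ∧ (x.2 : ℕ) < P ∧ col j x.1 = col l x.2)).card +
      ((univ : Finset (Fin m × Fin m)).filter
        (fun x => P ≤ (x.1 : ℕ) ∧ x.1 < x.2 ∧ col l x.1 = col j x.2)).card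
  else
    if g l = true then
      ((univ : Finset (Fin m × Fin m)).filter
        (fun x => x.1 < x.2 ∧ (x.2 : ℕ) < P ∧ col l x.1 = col j x.2)).card +
      ((univ : Finset (Fin m × Fin m)).filter
        (fun x => P ≤ (x.1 : ℕ) ∧ x.1 < x.2 ∧ col j x.1 = col l x.2)).card
    else
      ((univ : Finset (Fin m × Fin m)).filter
        (fun x => x.1 < x.2 ∧ col j x.1 = col l x.2)).card

/-- The two-colouring of the `B`-vertices attached to a pair of positions. -/
def fbEps {m n : ℕ} (g : Fin n → Bool) (col : Fin n → Fin m → Bool) (k k' : Fin m)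
    (j : Fin n) : Bool :=
  if g j = true then col j k else col j k'

theorem fb_tok_le (m P : ℕ) (hP : P ≤ m) (h2 : m ≤ 2 * P) {n : ℕ} (g : Fin n → Bool)
    (col : Fin n → Fin m → Bool) (j l : Fin n) :
    ∑ y : Fin m × Fin m,
      (if fbEps g col y.1 y.2 j = fbEps g col y.1 y.2 l then fbJ m P y.1 y.2 else 0) ≤
      fbQ m P g col j l := by
  unfold fbQ fbEps
  by_cases hj : g j = true
  · by_cases hl : g l = true
    · simp only [hj, hl, if_true]
      rw [Fintype.sum_prod_type]
      have h : ∀ k : Fin m, ∑ k' : Fin m, (if col j k = col l k then fbJ m P k k' else 0) =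
          if col j k = col l k then min (fbRk m P k) (m - 1 - fbRk m P k) else 0 := by
        intro k
        split_ifs
        · exact fbJ_row m P hP h2 k
        · simp
      rw [Finset.sum_congr rfl (fun k _ => h k)]
      exact same_gap_rk m P hP (col j) (col l)
    · simp only [hj, hl, Bool.false_eq_true, if_true, if_false]
      exact fb_cross m P hP (col j) (col l)
  · by_cases hl : g l = true
    · simp only [hj, hl, Bool.false_eq_true, if_true, if_false]
      have key := fb_cross m P hP (col l) (col j)
      refine le_trans (le_of_eq ?_) key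
      apply Finset.sum_congr rfl
      intro y _
      by_cases h : col j y.2 = col l y.1
      · rw [if_pos h, if_pos h.symm]
      · rw [if_neg h, if_neg (fun h' => h h'.symm)]
    · simp only [hj, hl, Bool.false_eq_true, if_false]
      rw [Fintype.sum_prod_type_right]
      have h : ∀ k' : Fin m, ∑ k : Fin m, (if col j k' = col l k' then fbJ m P k k' else 0) =
          if col j k' = col l k' then mu m k' else 0 := by
        intro k'
        split_ifs
        · exact fbJ_col m P hP h2 k'
        · simp
      rw [Finset.sum_congr rfl (fun k' _ => h k')]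
      exact same_gap m (col j) (col l)

/-- The abstract bound: Zarankiewicz's number is at most the sum of the pairwise counts. -/
theorem fb_bound (m P n : ℕ) (hP : P ≤ m) (h2 : m ≤ 2 * P) (g : Fin n → Bool)
    (col : Fin n → Fin m → Bool) :
    (m / 2) * ((m - 1) / 2) * ((n / 2) * ((n - 1) / 2)) ≤
      ∑ x ∈ (univ : Finset (Fin n × Fin n)).filter (fun x => x.1 < x.2),
        fbQ m P g col x.1 x.2 := by
  classical
  have htotal : ∑ y : Fin m × Fin m, fbJ m P y.1 y.2 = (m / 2) * ((m - 1) / 2) := by
    rw [Fintype.sum_prod_type, Finset.sum_congr rfl (fun k _ => fbJ_row m P hP h2 k),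
      ← sum_mu m, ← Equiv.sum_comp (fbEquiv m P hP) (fun t => mu m t)]
    rfl
  have hmono : ∀ y : Fin m × Fin m, (n / 2) * ((n - 1) / 2) ≤
      ((univ : Finset (Fin n × Fin n)).filter
        (fun x => x.1 < x.2 ∧ fbEps g col y.1 y.2 x.1 = fbEps g col y.1 y.2 x.2)).card := by
    intro y
    have key := mono_pairs n (fun j => fbEps g col y.1 y.2 j = true)
    refine le_trans key (le_of_eq ?_)
    congr 1
    ext x
    simp only [mem_filter, mem_univ, true_and]
    constructor
    · rintro ⟨h1, h2⟩
      exact ⟨h1, Bool.eq_iff_iff.mpr h2⟩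
    · rintro ⟨h1, h2⟩
      exact ⟨h1, Bool.eq_iff_iff.mp h2⟩
  calc (m / 2) * ((m - 1) / 2) * ((n / 2) * ((n - 1) / 2))
      = ∑ y : Fin m × Fin m, fbJ m P y.1 y.2 * ((n / 2) * ((n - 1) / 2)) := by
        rw [← Finset.sum_mul, htotal]
    _ ≤ ∑ y : Fin m × Fin m, fbJ m P y.1 y.2 *
          ((univ : Finset (Fin n × Fin n)).filter
            (fun x => x.1 < x.2 ∧ fbEps g col y.1 y.2 x.1 = fbEps g col y.1 y.2 x.2)).card :=
        Finset.sum_le_sum (fun y _ => Nat.mul_le_mul_left _ (hmono y))
    _ = ∑ x ∈ (univ : Finset (Fin n × Fin n)).filter (fun x => x.1 < x.2),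
          ∑ y : Fin m × Fin m,
            (if fbEps g col y.1 y.2 x.1 = fbEps g col y.1 y.2 x.2 then fbJ m P y.1 y.2 else 0) := by
        rw [Finset.sum_comm]
        apply Finset.sum_congr rfl
        intro y _
        rw [← Finset.filter_filter, Finset.card_filter, Finset.mul_sum]
        apply Finset.sum_congr rfl
        intro x _
        split_ifs <;> simp
    _ ≤ ∑ x ∈ (univ : Finset (Fin n × Fin n)).filter (fun x => x.1 < x.2),
          fbQ m P g col x.1 x.2 :=
        Finset.sum_le_sum (fun x _ => fb_tok_le m P hP h2 g col x.1 x.2)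

/-- Summing a function of ordered pairs over all pairs dominates the sum over the pairs `j < l`
of its two values at `(j, l)` and `(l, j)`. -/
theorem sum_lt_add_swap_le (n : ℕ) (F : Fin n → Fin n → ℕ) :
    ∑ y ∈ (univ : Finset (Fin n × Fin n)).filter (fun y => y.1 < y.2),
      (F y.1 y.2 + F y.2 y.1) ≤ ∑ y : Fin n × Fin n, F y.1 y.2 := by
  classical
  rw [Finset.sum_add_distrib]
  have hswap : ∑ y ∈ (univ : Finset (Fin n × Fin n)).filter (fun y => y.1 < y.2), F y.2 y.1 =
      ∑ y ∈ (univ : Finset (Fin n × Fin n)).filter (fun y => y.2 < y.1), F y.1 y.2 := by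
    apply Finset.sum_bij (fun (y : Fin n × Fin n) _ => (y.2, y.1))
    · intro y hy
      rw [Finset.mem_filter] at hy ⊢
      exact ⟨Finset.mem_univ _, hy.2⟩
    · intro y _ z _ h
      simp only [Prod.mk.injEq] at h
      exact Prod.ext h.2 h.1
    · intro z hz
      rw [Finset.mem_filter] at hz
      exact ⟨(z.2, z.1), Finset.mem_filter.mpr ⟨Finset.mem_univ _, hz.2⟩, rfl⟩
    · intro y _
      rfl
  rw [hswap]
  have hdisj : Disjoint ((univ : Finset (Fin n × Fin n)).filter (fun y => y.1 < y.2))
      ((univ : Finset (Fin n × Fin n)).filter (fun y => y.2 < y.1)) := by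
    rw [Finset.disjoint_left]
    intro y h1 h2
    rw [Finset.mem_filter] at h1 h2
    exact lt_asymm h1.2 h2.2
  rw [← Finset.sum_union hdisj]
  exact Finset.sum_le_sum_of_subset (Finset.subset_univ _)

end Vale.Agent.H11.P040
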