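import Mathlib

/-!
Helper lemmas for P040: two-page drawings of `K_{m,n}` whose page assignment is
`page (a i) (b j) = ε i xor η j`.

Abstract setting: a sign matrix `σ : Fin m → Fin n → ℤ` (entries `±1`; in the application
`σ i j = 1` iff `b j` lies before `a i` on the spine) and sign vectors `e`, `h` (the two
colourings).  The quantity
`∑_{i ≠ k} ∑_{j ≠ l} (1 + σ i j * σ i l * σ k j * σ k l) * (1 + e i * e k * h j * h l)`
equals sixteen times the number of crossings; we bound it from below by expanding it into two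
families of squares (Gram sums over the rows, resp. the columns, of `σ`) and using parity.
-/

namespace Vale.Agent.H11.P040X

open Finset

/-- The off-diagonal indicator. -/
def od {N : ℕ} (q : Fin N × Fin N) : ℤ := if q.1 = q.2 then 0 else 1

theorem od_nonneg {N : ℕ} (q : Fin N × Fin N) : 0 ≤ od q := by
  unfold od
  split_ifs <;> norm_num

/-- Off-diagonal sum of the products `x i * x k` of a `±1` vector. -/
theorem sum_od_mul {N : ℕ} (x : Fin N → ℤ) (hx : ∀ j, x j * x j = 1) :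
    ∑ q : Fin N × Fin N, od q * (x q.1 * x q.2) = (∑ j, x j) ^ 2 - N := by
  have h1 : ∀ q : Fin N × Fin N, od q * (x q.1 * x q.2) =
      x q.1 * x q.2 - (if q.1 = q.2 then x q.1 * x q.2 else 0) := by
    intro q
    unfold od
    split_ifs <;> ring
  simp only [h1, Finset.sum_sub_distrib, Fintype.sum_prod_type]
  have h2 : ∑ i : Fin N, ∑ k : Fin N, x i * x k = (∑ j, x j) ^ 2 := by
    rw [sq, Finset.sum_mul_sum]
  have h3 : ∑ i : Fin N, ∑ k : Fin N, (if i = k then x i * x k else 0) = N := by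
    have h4 : ∀ i : Fin N, ∑ k : Fin N, (if i = k then x i * x k else 0) = 1 := by
      intro i
      rw [Finset.sum_ite_eq]
      simp [hx]
    simp [h4]
  rw [h2, h3]

/-- The number of off-diagonal pairs. -/
theorem sum_od (N : ℕ) : ∑ q : Fin N × Fin N, od q = (N : ℤ) ^ 2 - N := by
  have h := sum_od_mul (fun _ : Fin N => (1 : ℤ)) (fun _ => by norm_num)
  simpa using h

/-- A sum of `N` signs has the parity of `N`; in particular its square is at least `N % 2`. -/
theorem parity_le_sq_sum {N : ℕ} (x : Fin N → ℤ) (hx : ∀ j, x j * x j = 1) :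
    ((N % 2 : ℕ) : ℤ) ≤ (∑ j, x j) ^ 2 := by
  have hx' : ∀ j, x j % 2 = 1 := by
    intro j
    have h1 : (x j - 1) * (x j + 1) = 0 := by
      have := hx j
      ring_nf
      ring_nf at this
      omega
    rcases mul_eq_zero.mp h1 with h | h
    · have : x j = 1 := by omega
      rw [this]
      rfl
    · have : x j = -1 := by omega
      rw [this]
      rfl
  have hmod : (∑ j, x j) % 2 = (N : ℤ) % 2 := by
    rw [Finset.sum_int_mod]
    simp [hx']
  set s := ∑ j, x j with hs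
  have hN : ((N % 2 : ℕ) : ℤ) = (N : ℤ) % 2 := by omega
  rw [hN, ← hmod]
  have h1 : s % 2 = 0 ∨ s % 2 = 1 := by omega
  rcases h1 with h | h
  · rw [h]
    positivity
  · rw [h]
    have h2 : s ≤ -1 ∨ 1 ≤ s := by omega
    rcases h2 with h2 | h2 <;> nlinarith

/-- The lower bound obtained from the row Gram sums weighted by `h` (pairs `i ≠ k` with
`e i = e k`) and the column Gram sums (pairs `j ≠ l` with `h j ≠ h l`). -/
theorem core (m n : ℕ) (σ : Fin m → Fin n → ℤ) (hσ : ∀ i j, σ i j * σ i j = 1)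
    (e : Fin m → ℤ) (he : ∀ i, e i * e i = 1) (h : Fin n → ℤ) (hh : ∀ j, h j * h j = 1) :
    ((m : ℤ) ^ 2 - m) * ((n : ℤ) ^ 2 - n) + ((∑ i, e i) ^ 2 - m) * ((∑ j, h j) ^ 2 - n)
        + ((m : ℤ) ^ 2 - 2 * m + (∑ i, e i) ^ 2) * (((n % 2 : ℕ) : ℤ) - n)
        + ((n : ℤ) ^ 2 - (∑ j, h j) ^ 2) * (((m % 2 : ℕ) : ℤ) - m) ≤
      ∑ p : Fin m × Fin m, ∑ q : Fin n × Fin n,
        od p * od q * ((1 + σ p.1 q.1 * σ p.1 q.2 * σ p.2 q.1 * σ p.2 q.2) *
          (1 + e p.1 * e p.2 * h q.1 * h q.2)) := by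
  set X := ∑ i, e i with hX
  set Y := ∑ j, h j with hY
  have sA1 := sum_od m
  have sB1 := sum_od n
  have sA2 : ∑ p : Fin m × Fin m, od p * (e p.1 * e p.2) = X ^ 2 - m := sum_od_mul e he
  have sB2 : ∑ q : Fin n × Fin n, od q * (h q.1 * h q.2) = Y ^ 2 - n := sum_od_mul h hh
  -- the row Gram sums
  have sH : ∀ p : Fin m × Fin m, ((n % 2 : ℕ) : ℤ) - n ≤
      ∑ q : Fin n × Fin n, od q *
        (h q.1 * h q.2 * (σ p.1 q.1 * σ p.1 q.2 * σ p.2 q.1 * σ p.2 q.2)) := by
    intro p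
    have hx : ∀ j, (h j * σ p.1 j * σ p.2 j) * (h j * σ p.1 j * σ p.2 j) = 1 := by
      intro j
      calc (h j * σ p.1 j * σ p.2 j) * (h j * σ p.1 j * σ p.2 j)
          = (h j * h j) * (σ p.1 j * σ p.1 j) * (σ p.2 j * σ p.2 j) := by ring
        _ = 1 := by rw [hh, hσ, hσ]; norm_num
    have h1 := sum_od_mul (fun j => h j * σ p.1 j * σ p.2 j) hx
    have h2 := parity_le_sq_sum (fun j => h j * σ p.1 j * σ p.2 j) hx
    have h3 : ∑ q : Fin n × Fin n, od q *
        (h q.1 * h q.2 * (σ p.1 q.1 * σ p.1 q.2 * σ p.2 q.1 * σ p.2 q.2)) =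
        ∑ q : Fin n × Fin n, od q *
          ((h q.1 * σ p.1 q.1 * σ p.2 q.1) * (h q.2 * σ p.1 q.2 * σ p.2 q.2)) := by
      apply Finset.sum_congr rfl
      intro q _
      ring
    rw [h3, h1]
    linarith
  -- the column Gram sums
  have sU : ∀ q : Fin n × Fin n, ((m % 2 : ℕ) : ℤ) - m ≤
      ∑ p : Fin m × Fin m, od p * (σ p.1 q.1 * σ p.1 q.2 * σ p.2 q.1 * σ p.2 q.2) := by
    intro q
    have hx : ∀ i, (σ i q.1 * σ i q.2) * (σ i q.1 * σ i q.2) = 1 := by
      intro i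
      calc (σ i q.1 * σ i q.2) * (σ i q.1 * σ i q.2)
          = (σ i q.1 * σ i q.1) * (σ i q.2 * σ i q.2) := by ring
        _ = 1 := by rw [hσ, hσ]; norm_num
    have h1 := sum_od_mul (fun i => σ i q.1 * σ i q.2) hx
    have h2 := parity_le_sq_sum (fun i => σ i q.1 * σ i q.2) hx
    have h3 : ∑ p : Fin m × Fin m, od p * (σ p.1 q.1 * σ p.1 q.2 * σ p.2 q.1 * σ p.2 q.2) =
        ∑ p : Fin m × Fin m, od p * ((σ p.1 q.1 * σ p.1 q.2) * (σ p.2 q.1 * σ p.2 q.2)) := by
      apply Finset.sum_congr rfl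
      intro p _
      ring
    rw [h3, h1]
    linarith
  -- decomposition of the summand
  have hdecomp : ∀ (p : Fin m × Fin m) (q : Fin n × Fin n),
      od p * od q * ((1 + σ p.1 q.1 * σ p.1 q.2 * σ p.2 q.1 * σ p.2 q.2) *
          (1 + e p.1 * e p.2 * h q.1 * h q.2)) =
        od p * od q + (od p * (e p.1 * e p.2)) * (od q * (h q.1 * h q.2))
          + (od p * (1 + e p.1 * e p.2)) *
              (od q * (h q.1 * h q.2 * (σ p.1 q.1 * σ p.1 q.2 * σ p.2 q.1 * σ p.2 q.2)))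
          + (od q * (1 - h q.1 * h q.2)) *
              (od p * (σ p.1 q.1 * σ p.1 q.2 * σ p.2 q.1 * σ p.2 q.2)) := by
    intro p q
    ring
  simp only [hdecomp, Finset.sum_add_distrib]
  have t1 : ∑ p : Fin m × Fin m, ∑ q : Fin n × Fin n, od p * od q =
      ((m : ℤ) ^ 2 - m) * ((n : ℤ) ^ 2 - n) := by
    rw [← Finset.sum_mul_sum, sA1, sB1]
  have t2 : ∑ p : Fin m × Fin m, ∑ q : Fin n × Fin n,
      (od p * (e p.1 * e p.2)) * (od q * (h q.1 * h q.2)) = (X ^ 2 - m) * (Y ^ 2 - n) := by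
    rw [← Finset.sum_mul_sum, sA2, sB2]
  have t3 : ((m : ℤ) ^ 2 - 2 * m + X ^ 2) * (((n % 2 : ℕ) : ℤ) - n) ≤
      ∑ p : Fin m × Fin m, ∑ q : Fin n × Fin n, (od p * (1 + e p.1 * e p.2)) *
        (od q * (h q.1 * h q.2 * (σ p.1 q.1 * σ p.1 q.2 * σ p.2 q.1 * σ p.2 q.2))) := by
    have hsum : ∑ p : Fin m × Fin m, od p * (1 + e p.1 * e p.2) =
        (m : ℤ) ^ 2 - 2 * m + X ^ 2 := by
      simp only [mul_add, mul_one, Finset.sum_add_distrib]
      rw [sA1, sA2]
      ring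
    rw [← hsum, Finset.sum_mul]
    apply Finset.sum_le_sum
    intro p _
    rw [← Finset.mul_sum]
    apply mul_le_mul_of_nonneg_left (sH p)
    apply mul_nonneg (od_nonneg p)
    nlinarith [sq_nonneg (e p.1 + e p.2), he p.1, he p.2]
  have t4 : ((n : ℤ) ^ 2 - Y ^ 2) * (((m % 2 : ℕ) : ℤ) - m) ≤
      ∑ p : Fin m × Fin m, ∑ q : Fin n × Fin n, (od q * (1 - h q.1 * h q.2)) *
        (od p * (σ p.1 q.1 * σ p.1 q.2 * σ p.2 q.1 * σ p.2 q.2)) := by
    have hsum : ∑ q : Fin n × Fin n, od q * (1 - h q.1 * h q.2) = (n : ℤ) ^ 2 - Y ^ 2 := by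
      simp only [mul_sub, mul_one, Finset.sum_sub_distrib]
      rw [sB1, sB2]
      ring
    rw [Finset.sum_comm, ← hsum, Finset.sum_mul]
    apply Finset.sum_le_sum
    intro q _
    rw [← Finset.mul_sum]
    apply mul_le_mul_of_nonneg_left (sU q)
    apply mul_nonneg (od_nonneg q)
    nlinarith [sq_nonneg (h q.1 - h q.2), hh q.1, hh q.2]
  rw [t1, t2]
  linarith

/-- The same bound with the roles of rows and columns exchanged. -/
theorem core' (m n : ℕ) (σ : Fin m → Fin n → ℤ) (hσ : ∀ i j, σ i j * σ i j = 1)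
    (e : Fin m → ℤ) (he : ∀ i, e i * e i = 1) (h : Fin n → ℤ) (hh : ∀ j, h j * h j = 1) :
    ((m : ℤ) ^ 2 - m) * ((n : ℤ) ^ 2 - n) + ((∑ i, e i) ^ 2 - m) * ((∑ j, h j) ^ 2 - n)
        + ((n : ℤ) ^ 2 - 2 * n + (∑ j, h j) ^ 2) * (((m % 2 : ℕ) : ℤ) - m)
        + ((m : ℤ) ^ 2 - (∑ i, e i) ^ 2) * (((n % 2 : ℕ) : ℤ) - n) ≤
      ∑ p : Fin m × Fin m, ∑ q : Fin n × Fin n,
        od p * od q * ((1 + σ p.1 q.1 * σ p.1 q.2 * σ p.2 q.1 * σ p.2 q.2) *
          (1 + e p.1 * e p.2 * h q.1 * h q.2)) := by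
  have key := core n m (fun j i => σ i j) (fun j i => hσ i j) h hh e he
  have hswap : ∑ p : Fin m × Fin m, ∑ q : Fin n × Fin n,
        od p * od q * ((1 + σ p.1 q.1 * σ p.1 q.2 * σ p.2 q.1 * σ p.2 q.2) *
          (1 + e p.1 * e p.2 * h q.1 * h q.2)) =
      ∑ q : Fin n × Fin n, ∑ p : Fin m × Fin m,
        od q * od p * ((1 + σ p.1 q.1 * σ p.2 q.1 * σ p.1 q.2 * σ p.2 q.2) *
          (1 + h q.1 * h q.2 * e p.1 * e p.2)) := by
    rw [Finset.sum_comm]
    apply Finset.sum_congr rfl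
    intro q _
    apply Finset.sum_congr rfl
    intro p _
    ring
  rw [hswap]
  linarith

/-- `4 ⌊m/2⌋ ⌊(m-1)/2⌋ = m² - 2m + (m mod 2)`. -/
theorem four_d (m : ℕ) : 4 * ((m / 2) * ((m - 1) / 2)) + 2 * m = m ^ 2 + m % 2 := by
  rcases Nat.even_or_odd' m with ⟨t, rfl | rfl⟩
  · rcases t with _ | s
    · simp
    · have h1 : (2 * (s + 1)) / 2 = s + 1 := by omega
      have h2 : (2 * (s + 1) - 1) / 2 = s := by omega
      have h3 : (2 * (s + 1)) % 2 = 0 := by omega
      rw [h1, h2, h3]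
      ring
  · have h1 : (2 * t + 1) / 2 = t := by omega
    have h2 : (2 * t + 1 - 1) / 2 = t := by omega
    have h3 : (2 * t + 1) % 2 = 1 := by omega
    rw [h1, h2, h3]
    ring

open Classical in
/-- The indicator of a proposition. -/
noncomputable def ind (P : Prop) : ℤ := if P then 1 else 0

theorem ind_pos {P : Prop} (h : P) : ind P = 1 := by
  unfold ind
  rw [if_pos h]

theorem ind_neg {P : Prop} (h : ¬ P) : ind P = 0 := by
  unfold ind
  rw [if_neg h]

theorem ind_congr {P Q : Prop} (h : P ↔ Q) : ind P = ind Q := by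
  by_cases hP : P
  · rw [ind_pos hP, ind_pos (h.mp hP)]
  · rw [ind_neg hP, ind_neg (fun hQ => hP (h.mpr hQ))]

theorem ind_and (P Q : Prop) : ind (P ∧ Q) = ind P * ind Q := by
  by_cases hP : P
  · by_cases hQ : Q
    · rw [ind_pos hP, ind_pos hQ, ind_pos ⟨hP, hQ⟩]
      norm_num
    · rw [ind_neg hQ, ind_neg (fun h => hQ h.2)]
      norm_num
  · rw [ind_neg hP, ind_neg (fun h => hP h.1)]
    norm_num

theorem ite_eq_ind (P : Prop) [Decidable P] : (if P then (1 : ℤ) else 0) = ind P := by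
  by_cases hP : P
  · rw [if_pos hP, ind_pos hP]
  · rw [if_neg hP, ind_neg hP]

/-- The sign attached to a colour. -/
def eb (x : Bool) : ℤ := if x then 1 else -1

theorem eb_mul_self (x : Bool) : eb x * eb x = 1 := by
  cases x <;> simp [eb]

/-- Two edges are in the same page iff the product of the four signs is `1`. -/
theorem eb_page (x x' y y' : Bool) :
    1 + eb x * eb x' * eb y * eb y' = 2 * ind (xor x y = xor x' y') := by
  cases x <;> cases x' <;> cases y <;> cases y' <;> simp [eb, ind]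

theorem xor_swap_iff (x x' y y' : Bool) : (xor x y' = xor x' y) ↔ (xor x y = xor x' y') := by
  cases x <;> cases x' <;> cases y <;> cases y' <;> simp

/-- The sum of the signs of a colouring. -/
theorem sum_eb {N : ℕ} (c : Fin N → Bool) :
    ∑ i, eb (c i) = 2 * (((univ : Finset (Fin N)).filter (fun i => c i = true)).card : ℤ) - N := by
  have h1 : ∀ i, eb (c i) = 2 * (if c i = true then (1 : ℤ) else 0) - 1 := by
    intro i
    cases c i <;> simp [eb]
  simp only [h1, Finset.sum_sub_distrib, ← Finset.mul_sum]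
  rw [Finset.card_filter]
  push_cast
  simp

/-- For a balanced colouring the square of the sum of the signs is `N mod 2`. -/
theorem sq_sum_eb_of_balanced {N : ℕ} (c : Fin N → Bool)
    (h1 : 2 * ((univ : Finset (Fin N)).filter (fun i => c i = true)).card ≤ N + 1)
    (h2 : N ≤ 2 * ((univ : Finset (Fin N)).filter (fun i => c i = true)).card + 1) :
    (∑ i, eb (c i)) ^ 2 = ((N % 2 : ℕ) : ℤ) := by
  rw [sum_eb]
  set t := ((univ : Finset (Fin N)).filter (fun i => c i = true)).card with ht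
  have h3 : (2 * (t : ℤ) - N = 0 ∧ N % 2 = 0) ∨ (2 * (t : ℤ) - N = 1 ∧ N % 2 = 1) ∨
      (2 * (t : ℤ) - N = -1 ∧ N % 2 = 1) := by omega
  rcases h3 with ⟨h, h'⟩ | ⟨h, h'⟩ | ⟨h, h'⟩ <;> rw [h, h'] <;> norm_num

end Vale.Agent.H11.P040X
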